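import Vale.Agent.P231.W.Abs

/-!
# P231, stage 1, block A2: the degree layer

`prt k` is the projection of `Lam E` to degree `k`, `Form.part k` the projection of forms,
`IsDeg k w` says that `w` is homogeneous of degree `k`, and `DimLE D m` says that every plot of
`D` factors locally through a plot of a space of dimension at most `m`.
-/

set_option linter.unusedSectionVars false
set_option linter.unusedVariables false

open MeasureTheory Module Filter Topology
open scoped ContDiff Manifold

namespace Vale.Agent.P231.WA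

open Vale.Agent.P231.Fm Vale.Agent.P231.W

/-! ### constant forms -/

section Lam

variable {E : Type*} [NormedAddCommGroup E] [NormedSpace ℝ E]
variable {F : Type*} [NormedAddCommGroup F] [NormedSpace ℝ F]

/-- induction by multiplication with linear forms from the left -/
theorem Lam.left_ind {C : Lam E → Prop} (h1 : ∀ r : ℝ, C (algebraMap ℝ (Lam E) r))
    (h2 : ∀ (a : E →L[ℝ] ℝ) (w : Lam E), C w → C (dxl a * w))
    (h3 : ∀ v w, C v → C w → C (v + w)) (w : Lam E) : C w :=
  CliffordAlgebra.left_induction (Q := (0 : QuadraticForm ℝ (E →L[ℝ] ℝ))) h1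
    (fun v w hv hw => h3 v w hv hw) (fun w a hw => h2 a w hw) w

/-- the grading, as a homomorphism to polynomials -/
noncomputable def grd : Lam E →ₐ[ℝ] Polynomial (Lam E) :=
  Lam.lift (((Polynomial.monomial 1 : Lam E →ₗ[Lam E] Polynomial (Lam E)).restrictScalars ℝ) ∘ₗ
    dxl) fun a => by
      simp only [LinearMap.comp_apply, LinearMap.restrictScalars_apply,
        Polynomial.monomial_mul_monomial, dxl_mul_self, map_zero]

theorem grd_dxl (a : E →L[ℝ] ℝ) : grd (dxl a) = Polynomial.monomial 1 (dxl a) := by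
  rw [grd, Lam.lift_dxl]
  rfl

/-- the projection to degree `k` -/
noncomputable def prt (k : ℕ) : Lam E →ₗ[ℝ] Lam E :=
  ((Polynomial.lcoeff (Lam E) k).restrictScalars ℝ) ∘ₗ grd.toLinearMap

theorem prt_eq (k : ℕ) (w : Lam E) : prt k w = (grd w).coeff k := rfl

theorem prt_algebraMap (k : ℕ) (r : ℝ) : prt k (algebraMap ℝ (Lam E) r) =
    if k = 0 then algebraMap ℝ (Lam E) r else 0 := by
  rw [prt_eq, AlgHom.commutes, Polynomial.algebraMap_apply, Polynomial.coeff_C]

theorem prt_zero_dxl_mul (a : E →L[ℝ] ℝ) (w : Lam E) : prt 0 (dxl a * w) = 0 := by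
  rw [prt_eq, map_mul, grd_dxl, Polynomial.mul_coeff_zero, Polynomial.coeff_monomial_of_ne,
    zero_mul]
  norm_num

theorem prt_succ_dxl_mul (k : ℕ) (a : E →L[ℝ] ℝ) (w : Lam E) :
    prt (k + 1) (dxl a * w) = dxl a * prt k w := by
  rw [prt_eq, map_mul, grd_dxl, Polynomial.coeff_monomial_mul, prt_eq]

theorem prt_mul (k : ℕ) (v w : Lam E) :
    prt k (v * w) = ∑ p ∈ Finset.HasAntidiagonal.antidiagonal k, prt p.1 v * prt p.2 w := by
  rw [prt_eq, map_mul, Polynomial.coeff_mul]
  rfl

theorem prt_one (k : ℕ) : prt k (1 : Lam E) = if k = 0 then 1 else 0 := by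
  have := prt_algebraMap (E := E) k 1
  rwa [map_one] at this

theorem prt_dxl (k : ℕ) (a : E →L[ℝ] ℝ) : prt k (dxl a) = if k = 1 then dxl a else 0 := by
  cases k with
  | zero =>
    have := prt_zero_dxl_mul a 1
    rw [mul_one] at this
    rw [this, if_neg (by norm_num)]
  | succ k =>
    have := prt_succ_dxl_mul k a 1
    rw [mul_one, prt_one] at this
    rw [this]
    by_cases hk : k = 0
    · rw [if_pos hk, if_pos (by omega), mul_one]
    · rw [if_neg hk, if_neg (by omega), mul_zero]

theorem prt_prt (j k : ℕ) (w : Lam E) : prt j (prt k w) = if j = k then prt k w else 0 := by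
  induction w using Lam.left_ind generalizing j k with
  | h1 r =>
    rw [prt_algebraMap]
    by_cases hk : k = 0
    · rw [if_pos hk, prt_algebraMap, hk]
    · rw [if_neg hk, map_zero, ite_self]
  | h2 a w hw =>
    cases k with
    | zero => rw [prt_zero_dxl_mul, map_zero, ite_self]
    | succ k =>
      rw [prt_succ_dxl_mul]
      cases j with
      | zero => rw [prt_zero_dxl_mul, if_neg (by omega)]
      | succ j =>
        rw [prt_succ_dxl_mul, hw]
        by_cases h : j = k
        · rw [if_pos h, if_pos (by omega)]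
        · rw [if_neg h, if_neg (by omega), mul_zero]
  | h3 v w hv hw =>
    rw [map_add, map_add, hv, hw]
    split_ifs
    · rfl
    · rw [add_zero]

@[simp] theorem prt_prt_self (k : ℕ) (w : Lam E) : prt k (prt k w) = prt k w := by
  rw [prt_prt, if_pos rfl]

theorem prt_prt_of_ne {j k : ℕ} (h : j ≠ k) (w : Lam E) : prt j (prt k w) = 0 := by
  rw [prt_prt, if_neg h]

theorem prt_of_eq_of_ne {j k : ℕ} (h : j ≠ k) {w : Lam E} (hw : prt k w = w) : prt j w = 0 := by
  rw [← hw, prt_prt_of_ne h]

theorem prt_mul_of_eq {j k : ℕ} {v w : Lam E} (hv : prt j v = v) (hw : prt k w = w) :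
    prt (j + k) (v * w) = v * w := by
  rw [prt_mul, Finset.sum_eq_single (j, k)]
  · rw [hv, hw]
  · rintro ⟨a, b⟩ hab hne
    by_cases ha : a = j
    · have hb : b ≠ k := fun hb => hne (by rw [ha, hb])
      rw [prt_of_eq_of_ne hb hw, mul_zero]
    · rw [prt_of_eq_of_ne ha hv, zero_mul]
  · intro h
    exact absurd (Finset.HasAntidiagonal.mem_antidiagonal.2 (rfl : j + k = j + k)) h

theorem prt_mul_of_left {j k : ℕ} {v : Lam E} (hv : prt j v = v) (w : Lam E) :
    prt (j + k) (v * w) = v * prt k w := by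
  rw [prt_mul, Finset.sum_eq_single (j, k)]
  · rw [hv]
  · rintro ⟨a, b⟩ hab hne
    have hab' : a + b = j + k := Finset.HasAntidiagonal.mem_antidiagonal.1 hab
    by_cases ha : a = j
    · exact absurd (by rw [ha, show b = k by omega]) hne
    · rw [prt_of_eq_of_ne ha hv, zero_mul]
  · intro h
    exact absurd (Finset.HasAntidiagonal.mem_antidiagonal.2 (rfl : j + k = j + k)) h

theorem prt_mul_of_right {j k : ℕ} {w : Lam E} (hw : prt k w = w) (v : Lam E) :
    prt (j + k) (v * w) = prt j v * w := by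
  rw [prt_mul, Finset.sum_eq_single (j, k)]
  · rw [hw]
  · rintro ⟨a, b⟩ hab hne
    have hab' : a + b = j + k := Finset.HasAntidiagonal.mem_antidiagonal.1 hab
    by_cases hb : b = k
    · exact absurd (by rw [hb, show a = j by omega]) hne
    · rw [prt_of_eq_of_ne hb hw, mul_zero]
  · intro h
    exact absurd (Finset.HasAntidiagonal.mem_antidiagonal.2 (rfl : j + k = j + k)) h

theorem prt_pull (L : E →L[ℝ] F) (k : ℕ) (w : Lam F) :
    prt k (Fm.pull L w) = Fm.pull L (prt k w) := by
  induction w using Lam.left_ind generalizing k with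
  | h1 r =>
    rw [AlgHom.commutes, prt_algebraMap, prt_algebraMap]
    split_ifs
    · rw [AlgHom.commutes]
    · rw [map_zero]
  | h2 a w hw =>
    rw [map_mul, pull_dxl]
    cases k with
    | zero => rw [prt_zero_dxl_mul, prt_zero_dxl_mul, map_zero]
    | succ k => rw [prt_succ_dxl_mul, prt_succ_dxl_mul, map_mul, pull_dxl, hw]
  | h3 v w hv hw => rw [map_add, map_add, hv, hw, map_add, map_add]

theorem prt_inv (k : ℕ) (w : Lam E) : prt k (inv w) = inv (prt k w) := by
  induction w using Lam.left_ind generalizing k with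
  | h1 r =>
    rw [AlgHom.commutes, prt_algebraMap]
    split_ifs
    · rw [AlgHom.commutes]
    · rw [map_zero]
  | h2 a w hw =>
    rw [map_mul, inv_dxl, neg_mul, map_neg]
    cases k with
    | zero => rw [prt_zero_dxl_mul, prt_zero_dxl_mul, map_zero, neg_zero]
    | succ k => rw [prt_succ_dxl_mul, prt_succ_dxl_mul, map_mul, inv_dxl, hw, neg_mul]
  | h3 v w hv hw => rw [map_add, map_add, hv, hw, map_add, map_add]

theorem inv_prt (k : ℕ) (w : Lam E) : inv (prt k w) = (-1 : ℝ) ^ k • prt k w := by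
  induction w using Lam.left_ind generalizing k with
  | h1 r =>
    rw [prt_algebraMap]
    by_cases hk : k = 0
    · rw [if_pos hk, AlgHom.commutes, hk, pow_zero, one_smul]
    · rw [if_neg hk, map_zero, smul_zero]
  | h2 a w hw =>
    cases k with
    | zero => rw [prt_zero_dxl_mul, map_zero, smul_zero]
    | succ k =>
      rw [prt_succ_dxl_mul, map_mul, inv_dxl, hw, pow_succ, mul_neg_one, neg_smul, neg_mul,
        mul_smul_comm]
  | h3 v w hv hw => rw [map_add, map_add, hv, hw, smul_add]

/-- an element is the sum of its parts -/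
theorem exists_sum_prt (w : Lam E) :
    ∃ N : ℕ, ∀ n, N ≤ n → w = ∑ k ∈ Finset.range n, prt k w := by
  induction w using Lam.left_ind with
  | h1 r =>
    refine ⟨1, fun n hn => ?_⟩
    rw [Finset.sum_eq_single_of_mem 0 (Finset.mem_range.2 (by omega)), prt_algebraMap,
      if_pos rfl]
    intro k _ hk
    rw [prt_algebraMap, if_neg hk]
  | h2 a w hw =>
    obtain ⟨N, hN⟩ := hw
    refine ⟨N + 1, fun n hn => ?_⟩
    obtain ⟨m, rfl⟩ : ∃ m, n = m + 1 := ⟨n - 1, by omega⟩
    rw [Finset.sum_range_succ', prt_zero_dxl_mul, add_zero]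
    simp only [prt_succ_dxl_mul]
    rw [← Finset.mul_sum, ← hN m (by omega)]
  | h3 v w hv hw =>
    obtain ⟨N, hN⟩ := hv
    obtain ⟨N', hN'⟩ := hw
    refine ⟨max N N', fun n hn => ?_⟩
    simp only [map_add]
    rw [Finset.sum_add_distrib, ← hN n (le_trans (le_max_left _ _) hn),
      ← hN' n (le_trans (le_max_right _ _) hn)]

end Lam

section LamFD

variable {E : Type*} [NormedAddCommGroup E] [NormedSpace ℝ E] [FiniteDimensional ℝ E]
variable {F : Type*} [NormedAddCommGroup F] [NormedSpace ℝ F] [FiniteDimensional ℝ F]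

theorem prt_zero_dx_mul (a : E →L[ℝ] ℝ) (w : Lam E) : prt 0 (dx a * w) = 0 :=
  prt_zero_dxl_mul a w

theorem prt_succ_dx_mul (k : ℕ) (a : E →L[ℝ] ℝ) (w : Lam E) :
    prt (k + 1) (dx a * w) = dx a * prt k w := prt_succ_dxl_mul k a w

theorem prt_dx (k : ℕ) (a : E →L[ℝ] ℝ) : prt k (dx a) = if k = 1 then dx a else 0 :=
  prt_dxl k a

/-- the projection as a continuous linear map -/
noncomputable def prtL (k : ℕ) : Lam E →L[ℝ] Lam E := LinearMap.toContinuousLinearMap (prt k)

@[simp] theorem prtL_apply (k : ℕ) (w : Lam E) : prtL k w = prt k w := rfl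

theorem prt_zero (w : Lam E) : prt 0 w = algebraMap ℝ (Lam E) (aug w) := by
  induction w using Lam.left_ind with
  | h1 r => rw [prt_algebraMap, if_pos rfl, AlgHom.commutes]; rfl
  | h2 a w hw => rw [prt_zero_dxl_mul, map_mul, ← dx_eq, aug_dx, zero_mul, map_zero]
  | h3 v w hv hw => rw [map_add, hv, hw, map_add, map_add]

theorem aug_prt (k : ℕ) (w : Lam E) : aug (prt k w) = if k = 0 then aug w else 0 := by
  induction w using Lam.left_ind generalizing k with
  | h1 r =>
    rw [prt_algebraMap]
    split_ifs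
    · rfl
    · rw [map_zero]
  | h2 a w hw =>
    cases k with
    | zero => rw [prt_zero_dxl_mul, map_zero, map_mul, ← dx_eq, aug_dx, zero_mul, ite_self]
    | succ k => rw [prt_succ_dxl_mul, map_mul, ← dx_eq, aug_dx, zero_mul, if_neg (by omega)]
  | h3 v w hv hw =>
    rw [map_add, map_add, hv, hw, map_add]
    split_ifs
    · rfl
    · rw [add_zero]

theorem prt_zero_dLin (T : E →L[ℝ] Lam E) : prt 0 (dLin T) = 0 := by
  rw [prt_zero, aug_dLin, map_zero]

theorem prt_succ_dLin (k : ℕ) (T : E →L[ℝ] Lam E) :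
    prt (k + 1) (dLin T) = dLin (prtL k ∘L T) := by
  induction T using clm_ind with
  | h1 a v =>
    have : prtL k ∘L (a.smulRight v) = a.smulRight (prt k v) := by ext x; simp
    rw [this, dLin_smulRight, dLin_smulRight, prt_succ_dx_mul]
  | h0 => simp
  | h2 S T hS hT => rw [ContinuousLinearMap.comp_add, map_add, map_add, map_add, hS, hT]

theorem iprod_prt_zero (v : E) (w : Lam E) : iprod v (prt 0 w) = 0 := by
  rw [prt_zero, iprod_algebraMap]

/-- the interior product lowers the degree by one -/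
theorem prt_iprod (k : ℕ) (v : E) (w : Lam E) :
    prt k (iprod v w) = iprod v (prt (k + 1) w) := by
  induction w using Lam.left_ind generalizing k with
  | h1 r => rw [iprod_algebraMap, map_zero, prt_algebraMap, if_neg (by omega), map_zero]
  | h2 a w hw =>
    rw [prt_succ_dxl_mul, ← dx_eq, iprod_dx_mul, iprod_dx_mul, map_sub, map_smul]
    congr 1
    cases k with
    | zero => rw [prt_zero_dx_mul, iprod_prt_zero, mul_zero]
    | succ k => rw [prt_succ_dx_mul, hw]
  | h3 v w hv hw => rw [map_add, map_add, hv, hw, map_add, map_add]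

theorem aug_cont_prt {k : ℕ} (v : Fin k → E) (w : Lam E) :
    aug (cont v (prt k w)) = aug (cont v w) := by
  induction k generalizing w with
  | zero => rw [cont_zero, cont_zero, aug_prt, if_pos rfl]
  | succ k ih => rw [cont_succ, cont_succ, ← prt_iprod, ih]

theorem aug_cont_prt_of_ne {k j : ℕ} (hj : j ≠ k) (v : Fin k → E) (w : Lam E) :
    aug (cont v (prt j w)) = 0 := by
  rw [← aug_cont_prt, prt_prt_of_ne hj.symm, map_zero, map_zero]

/-- evaluation on `k` vectors sees only the part of degree `k` -/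
theorem evalForm_prt {k : ℕ} (w : Lam E) (v : Fin k → E) :
    evalForm (prt k w) v = evalForm w v := aug_cont_prt v w

theorem evalForm_prt_of_ne {k j : ℕ} (hj : j ≠ k) (w : Lam E) (v : Fin k → E) :
    evalForm (prt j w) v = 0 := aug_cont_prt_of_ne hj v w

/-! #### vanishing above the dimension -/

theorem prt_mem (k : ℕ) (w : Lam E) :
    (prt k w : ExteriorAlgebra ℝ (E →L[ℝ] ℝ)) ∈ ⋀[ℝ]^k (E →L[ℝ] ℝ) := by
  induction w using Lam.left_ind generalizing k with
  | h1 r =>
    rw [prt_algebraMap]
    by_cases hk : k = 0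
    · subst hk
      rw [if_pos rfl]
      change _ ∈ (LinearMap.range (ExteriorAlgebra.ι ℝ : (E →L[ℝ] ℝ) →ₗ[ℝ] _)) ^ 0
      rw [pow_zero]
      exact Submodule.algebraMap_mem r
    · rw [if_neg hk]
      exact Submodule.zero_mem _
  | h2 a w hw =>
    cases k with
    | zero =>
      rw [prt_zero_dxl_mul]
      exact Submodule.zero_mem _
    | succ k =>
      rw [prt_succ_dxl_mul]
      change _ ∈ (LinearMap.range (ExteriorAlgebra.ι ℝ : (E →L[ℝ] ℝ) →ₗ[ℝ] _)) ^ (k + 1)
      rw [pow_succ']
      exact Submodule.mul_mem_mul ⟨a, rfl⟩ (hw k)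
  | h3 v w hv hw =>
    rw [map_add]
    exact Submodule.add_mem _ (hv k) (hw k)

theorem finrank_dual : Module.finrank ℝ (E →L[ℝ] ℝ) = Module.finrank ℝ E := by
  have h : Module.finrank ℝ (E →L[ℝ] ℝ) = Module.finrank ℝ (Module.Dual ℝ E) :=
    (LinearMap.toContinuousLinearMap (𝕜 := ℝ) (E := E) (F' := ℝ)).symm.finrank_eq
  rw [h, Subspace.dual_finrank_eq]

/-- there are no forms above the dimension -/
theorem prt_eq_zero {k : ℕ} (hk : Module.finrank ℝ E < k) (w : Lam E) : prt k w = 0 := by
  have h1 := prt_mem k w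
  rw [← ExteriorAlgebra.ιMulti_span_fixedDegree ℝ k] at h1
  have h2 : Submodule.span ℝ (Set.range (ExteriorAlgebra.ιMulti ℝ k (M := E →L[ℝ] ℝ))) = ⊥ := by
    rw [Submodule.span_eq_bot]
    rintro _ ⟨v, rfl⟩
    refine AlternatingMap.map_linearDependent _ v fun hv => ?_
    have h3 := hv.fintype_card_le_finrank
    rw [Fintype.card_fin, finrank_dual] at h3
    omega
  rw [h2] at h1
  exact (Submodule.mem_bot ℝ).1 h1

theorem sum_prt {n : ℕ} (hn : Module.finrank ℝ E < n) (w : Lam E) :
    ∑ k ∈ Finset.range n, prt k w = w := by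
  obtain ⟨N, hN⟩ := exists_sum_prt w
  have h1 := hN (max N n) (le_max_left _ _)
  conv_rhs => rw [h1]
  refine Finset.sum_subset (Finset.range_mono (le_max_right _ _)) fun k _ hk => ?_
  refine prt_eq_zero ?_ w
  have := Finset.mem_range.not.1 hk
  omega

end LamFD

end Vale.Agent.P231.WA

/-! ### forms -/

namespace Vale.Agent.P231.Fm.Form

open Vale.Agent.P231.WA

variable {X Y : Type*} {D : Dif X} {D' : Dif Y}

/-- the part of degree `k` of a form -/
noncomputable def part (k : ℕ) (w : Form D) : Form D where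
  val u x := prt k (w.val u x)
  smooth {E} _ _ _ {u x} h :=
    ((prtL (E := E) k).contDiff.contDiffAt (x := w.val u x)).comp x (w.smooth h)
  nat h hg := by rw [w.nat h hg, prt_pull]
  congr h hv := by rw [w.congr h hv]
  junk h := by rw [w.junk h, map_zero]

theorem part_val {E : Type} [NormedAddCommGroup E] [NormedSpace ℝ E] [FiniteDimensional ℝ E]
    (k : ℕ) (w : Form D) (u : E → X) (x : E) : (part k w).val u x = prt k (w.val u x) := rfl

theorem part_add (k : ℕ) (v w : Form D) : part k (v + w) = part k v + part k w :=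
  ext_val fun E _ _ _ u x _ => map_add _ _ _

theorem part_sub (k : ℕ) (v w : Form D) : part k (v - w) = part k v - part k w :=
  ext_val fun E _ _ _ u x _ => map_sub _ _ _

theorem part_neg (k : ℕ) (w : Form D) : part k (-w) = -part k w :=
  ext_val fun E _ _ _ u x _ => map_neg _ _

theorem part_smul (k : ℕ) (c : ℝ) (w : Form D) : part k (c • w) = c • part k w :=
  ext_val fun E _ _ _ u x _ => map_smul _ _ _

@[simp] theorem part_zero' (k : ℕ) : part k (0 : Form D) = 0 :=
  ext_val fun E _ _ _ u x _ => map_zero _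

/-- the projection as a linear map -/
noncomputable def partL (k : ℕ) : Form D →ₗ[ℝ] Form D where
  toFun := part k
  map_add' := part_add k
  map_smul' := part_smul k

@[simp] theorem partL_apply (k : ℕ) (w : Form D) : partL k w = part k w := rfl

theorem part_sum {ι : Type*} (s : Finset ι) (f : ι → Form D) (k : ℕ) :
    part k (∑ i ∈ s, f i) = ∑ i ∈ s, part k (f i) := map_sum (partL k) f s

theorem sum_val {ι : Type*} (s : Finset ι) (f : ι → Form D) {E : Type} [NormedAddCommGroup E]
    [NormedSpace ℝ E] [FiniteDimensional ℝ E] (u : E → X) (x : E) :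
    (∑ i ∈ s, f i).val u x = ∑ i ∈ s, (f i).val u x := by
  classical
  induction s using Finset.induction_on with
  | empty => rw [Finset.sum_empty, Finset.sum_empty, zero_val]
  | insert i s hi ih => rw [Finset.sum_insert hi, Finset.sum_insert hi, add_val, ih]

theorem part_one (k : ℕ) : part k (1 : Form D) = if k = 0 then 1 else 0 :=
  ext_val fun E _ _ _ u x h => by
    rw [part_val, one_val h, prt_one]
    split_ifs
    · rw [one_val h]
    · rfl

theorem part_part (j k : ℕ) (w : Form D) :
    part j (part k w) = if j = k then part k w else 0 :=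
  ext_val fun E _ _ _ u x h => by
    rw [part_val, part_val, prt_prt]
    split_ifs <;> rfl

@[simp] theorem part_part_self (k : ℕ) (w : Form D) : part k (part k w) = part k w := by
  rw [part_part, if_pos rfl]

theorem part_part_of_ne {j k : ℕ} (h : j ≠ k) (w : Form D) : part j (part k w) = 0 := by
  rw [part_part, if_neg h]

theorem part_mul (k : ℕ) (v w : Form D) :
    part k (v * w) = ∑ p ∈ Finset.HasAntidiagonal.antidiagonal k, part p.1 v * part p.2 w :=
  ext_val fun E _ _ _ u x h => by
    rw [part_val, mul_val, prt_mul, sum_val]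
    rfl

theorem part_sg (k : ℕ) (w : Form D) : part k w.sg = (part k w).sg :=
  ext_val fun E _ _ _ u x h => prt_inv _ _

theorem sg_part (k : ℕ) (w : Form D) : (part k w).sg = (-1 : ℝ) ^ k • part k w :=
  ext_val fun E _ _ _ u x h => inv_prt _ _

theorem part_pull (k : ℕ) (f : X → Y) (hf : D.Map D' f) (w : Form D') :
    part k (pull f hf w) = pull f hf (part k w) :=
  ext_val fun E _ _ _ u x h => by
    rw [part_val, pull_val hf _ h, pull_val hf _ h, part_val]

theorem part_succ_d (k : ℕ) (w : Form D) : part (k + 1) w.d = (part k w).d :=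
  ext_val fun E _ _ _ u x h => by
    rw [part_val, d_val _ h, d_val _ h, extd, prt_succ_dLin]
    have h1 : HasFDerivAt ((part k w).val u) (prtL k ∘L fderiv ℝ (w.val u) x) x :=
      (prtL (E := E) k).hasFDerivAt.comp x (w.differentiableAt h).hasFDerivAt
    rw [extd_of h1]

theorem part_zero_d (w : Form D) : part 0 w.d = 0 :=
  ext_val fun E _ _ _ u x h => by
    rw [part_val, d_val _ h, extd, prt_zero_dLin]
    rfl

theorem part_fn (k : ℕ) (f : X → ℝ) (hf : D.Map (Dif.lin ℝ) f) :
    part k (fn f hf) = if k = 0 then fn f hf else 0 :=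
  ext_val fun E _ _ _ u x h => by
    rw [part_val, fn_val f hf h, prt_algebraMap]
    split_ifs
    · rw [fn_val f hf h]
    · rfl

theorem part_K (k : ℕ) (w : Form (D.prod (Dif.lin ℝ))) : part k (K w) = K (part (k + 1) w) :=
  ext_val fun E _ _ _ u x h => by
    rw [part_val, K_val _ h, K_val _ h, kop, kop]
    obtain ⟨U, hU, hx, _, hw⟩ := cyl_smooth w h
    have hc : Continuous fun t : ℝ => w.val (cyl u) (x, t) :=
      hw.continuousOn.comp_continuous (Continuous.prodMk_right _) fun t => ⟨hx, Set.mem_univ _⟩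
    have h1 := ContinuousLinearMap.intervalIntegral_comp_comm
      (prtL (E := E) k) (a := 0) (b := 1) (μ := MeasureTheory.volume)
      (((at1 (E := E)).continuous.comp hc).intervalIntegrable 0 1)
    refine Eq.trans h1.symm ?_
    refine intervalIntegral.integral_congr fun t _ => ?_
    change prt k (at1 _) = at1 (prt (k + 1) _)
    rw [at1_apply, at1_apply, at0_apply, at0_apply, prt_pull, prt_iprod]

theorem K_part_zero (w : Form (D.prod (Dif.lin ℝ))) : K (part 0 w) = 0 :=
  ext_val fun E _ _ _ u x h => by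
    rw [K_val _ h, kop, zero_val]
    have h1 : ∀ t : ℝ, at1 ((part 0 w).val (cyl u) (x, t)) = 0 := fun t => by
      rw [part_val, at1_apply, iprod_prt_zero, map_zero]
    simp only [h1, intervalIntegral.integral_zero]

/-! #### homogeneous forms -/

/-- `w` is homogeneous of degree `k` -/
def IsDeg (k : ℕ) (w : Form D) : Prop := part k w = w

theorem isDeg_part (k : ℕ) (w : Form D) : IsDeg k (part k w) := part_part_self k w

theorem IsDeg.part_eq {k : ℕ} {w : Form D} (h : IsDeg k w) : part k w = w := h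

theorem IsDeg.part_eq_zero {j k : ℕ} {w : Form D} (h : IsDeg k w) (hj : j ≠ k) :
    part j w = 0 := by
  rw [← h.part_eq, part_part_of_ne hj]

theorem IsDeg.zero (k : ℕ) : IsDeg k (0 : Form D) := part_zero' k

theorem IsDeg.one : IsDeg 0 (1 : Form D) := by
  rw [IsDeg, part_one, if_pos rfl]

theorem IsDeg.add {k : ℕ} {v w : Form D} (hv : IsDeg k v) (hw : IsDeg k w) :
    IsDeg k (v + w) := by
  rw [IsDeg, part_add, hv.part_eq, hw.part_eq]

theorem IsDeg.sub {k : ℕ} {v w : Form D} (hv : IsDeg k v) (hw : IsDeg k w) :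
    IsDeg k (v - w) := by
  rw [IsDeg, part_sub, hv.part_eq, hw.part_eq]

theorem IsDeg.neg {k : ℕ} {w : Form D} (hw : IsDeg k w) : IsDeg k (-w) := by
  rw [IsDeg, part_neg, hw.part_eq]

theorem IsDeg.smul {k : ℕ} {w : Form D} (c : ℝ) (hw : IsDeg k w) : IsDeg k (c • w) := by
  rw [IsDeg, part_smul, hw.part_eq]

theorem IsDeg.sum {ι : Type*} {s : Finset ι} {f : ι → Form D} {k : ℕ}
    (h : ∀ i ∈ s, IsDeg k (f i)) : IsDeg k (∑ i ∈ s, f i) := by
  rw [IsDeg, part_sum]
  exact Finset.sum_congr rfl fun i hi => (h i hi).part_eq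

theorem IsDeg.mul {j k : ℕ} {v w : Form D} (hv : IsDeg j v) (hw : IsDeg k w) :
    IsDeg (j + k) (v * w) :=
  ext_val fun E _ _ _ u x h => by
    rw [part_val, mul_val]
    refine prt_mul_of_eq ?_ ?_
    · rw [← part_val, hv.part_eq]
    · rw [← part_val, hw.part_eq]

/-- the parts of a product with a homogeneous form -/
theorem IsDeg.part_mul_left {j : ℕ} {v : Form D} (hv : IsDeg j v) (k : ℕ) (w : Form D) :
    part (j + k) (v * w) = v * part k w :=
  ext_val fun E _ _ _ u x h => by
    rw [part_val, mul_val, mul_val, part_val]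
    refine prt_mul_of_left ?_ _
    rw [← part_val, hv.part_eq]

theorem IsDeg.part_mul_right {k : ℕ} {w : Form D} (hw : IsDeg k w) (j : ℕ) (v : Form D) :
    part (j + k) (v * w) = part j v * w :=
  ext_val fun E _ _ _ u x h => by
    rw [part_val, mul_val, mul_val, part_val]
    refine prt_mul_of_right ?_ _
    rw [← part_val, hw.part_eq]

theorem IsDeg.pow {j : ℕ} {v : Form D} (hv : IsDeg j v) (n : ℕ) : IsDeg (j * n) (v ^ n) := by
  induction n with
  | zero => simpa using IsDeg.one
  | succ n ih =>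
    rw [pow_succ, Nat.mul_succ]
    exact ih.mul hv

theorem IsDeg.sg {k : ℕ} {w : Form D} (hw : IsDeg k w) : w.sg = (-1 : ℝ) ^ k • w := by
  have := sg_part k w
  rwa [hw.part_eq] at this

theorem IsDeg.sg_of_even {k : ℕ} {w : Form D} (hw : IsDeg k w) (hk : Even k) : w.sg = w := by
  rw [hw.sg, hk.neg_one_pow, one_smul]

theorem IsDeg.sg_of_odd {k : ℕ} {w : Form D} (hw : IsDeg k w) (hk : Odd k) : w.sg = -w := by
  rw [hw.sg, hk.neg_one_pow, neg_one_smul]

theorem IsDeg.pull {k : ℕ} {w : Form D'} (hw : IsDeg k w) (f : X → Y) (hf : D.Map D' f) :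
    IsDeg k (pull f hf w) := by
  rw [IsDeg, part_pull, hw.part_eq]

theorem IsDeg.d {k : ℕ} {w : Form D} (hw : IsDeg k w) : IsDeg (k + 1) w.d := by
  rw [IsDeg, part_succ_d, hw.part_eq]

theorem IsDeg.K {k : ℕ} {w : Form (D.prod (Dif.lin ℝ))} (hw : IsDeg (k + 1) w) :
    IsDeg k (K w) := by
  rw [IsDeg, part_K, hw.part_eq]

theorem IsDeg.K_zero {w : Form (D.prod (Dif.lin ℝ))} (hw : IsDeg 0 w) : Form.K w = 0 := by
  rw [← hw.part_eq, K_part_zero]

theorem isDeg_fn (f : X → ℝ) (hf : D.Map (Dif.lin ℝ) f) : IsDeg 0 (fn f hf) := by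
  rw [IsDeg, part_fn, if_pos rfl]

end Vale.Agent.P231.Fm.Form

/-! ### spaces of bounded dimension -/

namespace Vale.Agent.P231.WA

open Vale.Agent.P231.Fm Vale.Agent.P231.W

variable {X Y : Type*} {D : Dif X} {D' : Dif Y}

/-- every plot factors locally through a plot of a space of dimension at most `m` -/
def DimLE (D : Dif X) (m : ℕ) : Prop :=
  ∀ {E : Type} [NormedAddCommGroup E] [NormedSpace ℝ E] [FiniteDimensional ℝ E]
    {u : E → X} {x : E}, D.At u x → ∃ (F : Type) (_ : NormedAddCommGroup F)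
      (_ : NormedSpace ℝ F) (_ : FiniteDimensional ℝ F) (v : F → X) (g : E → F),
      Module.finrank ℝ F ≤ m ∧ Sm g x ∧ D.At v (g x) ∧ u =ᶠ[𝓝 x] v ∘ g

/-- there are no forms above the dimension -/
theorem DimLE.part_eq_zero {m : ℕ} (hD : DimLE D m) {k : ℕ} (hk : m < k) (w : Form D) :
    Form.part k w = 0 := Form.ext_val fun E _ _ _ u x h => by
  obtain ⟨F, _, _, _, v, g, hF, hg, hv, huv⟩ := hD h
  rw [Form.part_val, w.congr h huv, w.nat hv hg, prt_pull, prt_eq_zero (by omega), map_zero]
  rfl

theorem DimLE.isDeg_eq_zero {m : ℕ} (hD : DimLE D m) {k : ℕ} (hk : m < k) {w : Form D}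
    (hw : Form.IsDeg k w) : w = 0 := by
  rw [← hw.part_eq, hD.part_eq_zero hk]

/-- a form is the sum of its parts -/
theorem DimLE.sum_part {m : ℕ} (hD : DimLE D m) {n : ℕ} (hn : m < n) (w : Form D) :
    ∑ k ∈ Finset.range n, Form.part k w = w := Form.ext_val fun E _ _ _ u x h => by
  obtain ⟨F, _, _, _, v, g, hF, hg, hv, huv⟩ := hD h
  rw [Form.sum_val]
  simp only [Form.part_val]
  rw [w.congr h huv, w.nat hv hg]
  simp only [prt_pull]
  rw [← map_sum, sum_prt (by omega)]

/-- powers above the dimension vanish -/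
theorem DimLE.pow_eq_zero {m : ℕ} (hD : DimLE D m) {j n : ℕ} (hn : m < j * n) {w : Form D}
    (hw : Form.IsDeg j w) : w ^ n = 0 := hD.isDeg_eq_zero hn (hw.pow n)

/-- `F^(n+1) = 0` for a two-form on a space of dimension `2 n` -/
theorem DimLE.two_pow_succ {n : ℕ} (hD : DimLE D (2 * n)) {F : Form D}
    (hF : Form.IsDeg 2 F) : F ^ (n + 1) = 0 := hD.pow_eq_zero (by omega) hF

theorem DimLE.mono {m m' : ℕ} (hD : DimLE D m) (h : m ≤ m') : DimLE D m' := by
  intro E _ _ _ u x hu
  obtain ⟨F, i1, i2, i3, v, g, hF, h1⟩ := hD hu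
  exact ⟨F, i1, i2, i3, v, g, hF.trans h, h1⟩

theorem dimLE_lin (V : Type) [NormedAddCommGroup V] [NormedSpace ℝ V] [FiniteDimensional ℝ V] :
    DimLE (Dif.lin V) (Module.finrank ℝ V) := by
  intro E _ _ _ u x hu
  exact ⟨V, inferInstance, inferInstance, inferInstance, id, u, le_rfl, hu,
    Sm.of_contDiff contDiff_id _, EventuallyEq.rfl⟩

theorem DimLE.prod {m m' : ℕ} (hD : DimLE D m) (hD' : DimLE D' m') :
    DimLE (D.prod D') (m + m') := by
  intro E _ _ _ u x hu
  obtain ⟨F, i1, i2, i3, v, g, hF, hg, hv, h1⟩ := hD hu.1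
  obtain ⟨F', i1', i2', i3', v', g', hF', hg', hv', h1'⟩ := hD' hu.2
  refine ⟨F × F', inferInstance, inferInstance, inferInstance, fun p => (v p.1, v' p.2),
    fun y => (g y, g' y), ?_, hg.prodMk hg', ⟨?_, ?_⟩, ?_⟩
  · rw [Module.finrank_prod]
    omega
  · exact D.comp (u := v) (g := Prod.fst) (x := (g x, g' x)) hv (Sm.of_contDiff contDiff_fst _)
  · exact D'.comp (u := v') (g := Prod.snd) (x := (g x, g' x)) hv'
      (Sm.of_contDiff contDiff_snd _)
  · filter_upwards [h1, h1'] with y h2 h3
    exact Prod.ext h2 h3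

end Vale.Agent.P231.WA
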