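import Vale.Agent.P231.WA.Deg

/-!
# P231, stage 1, block A2: flow invariance of the integral and integration over the orbits
-/

set_option linter.unusedSectionVars false
set_option linter.unusedVariables false

open MeasureTheory Module Filter Topology
open scoped ContDiff Manifold

namespace Vale.Agent.P231.WA

open Vale.Agent.P231.Fm Vale.Agent.P231.W

variable {V : Type*} {D : Dif V}

/-! ### degrees on the cylinder -/

theorem part_pr (k : ℕ) (w : Form D) : Form.part k (pr w) = pr (Form.part k w) :=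
  Form.part_pull k Prod.fst (Dif.map_fst (D := D) (D' := Dif.lin ℝ)) w

theorem part_at_ (k : ℕ) (t : ℝ) (w : Form (D.prod (Dif.lin ℝ))) :
    Form.part k (at_ t w) = at_ t (Form.part k w) :=
  Form.part_pull k (fun x => (x, t)) (Form.map_slice t) w

theorem part_KT (k : ℕ) (c : ℝ) (w : Form (D.prod (Dif.lin ℝ))) :
    Form.part k (KT c w) = KT c (Form.part (k + 1) w) := by
  unfold KT
  rw [Form.part_K, Form.part_pull]

theorem KT_part_zero (c : ℝ) (w : Form (D.prod (Dif.lin ℝ))) : KT c (Form.part 0 w) = 0 := by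
  unfold KT
  rw [← Form.part_pull, Form.K_part_zero]

theorem part_J {φ : V × ℝ → V} (hφ : (D.prod (Dif.lin ℝ)).Map D φ) (k : ℕ) (c : ℝ) (w : Form D) :
    Form.part k (J φ hφ c w) = J φ hφ c (Form.part (k + 1) w) := by
  unfold J
  rw [part_KT, Form.part_pull]

theorem isDeg_dt : Form.IsDeg 1 (dt : Form (D.prod (Dif.lin ℝ))) :=
  (Form.isDeg_fn (Prod.snd : V × ℝ → ℝ) (Dif.map_snd (D := D) (D' := Dif.lin ℝ))).d

theorem sg_dt : (dt : Form (D.prod (Dif.lin ℝ))).sg = -dt :=
  isDeg_dt.sg_of_odd (by decide)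

theorem d_dt : (dt : Form (D.prod (Dif.lin ℝ))).d = 0 := Form.d_d _

/-! ### additivity -/

theorem pr_add (v w : Form D) : pr (v + w) = pr v + pr w :=
  map_add (Form.pullA (Prod.fst : V × ℝ → V) Dif.map_fst) v w

theorem pr_sub (v w : Form D) : pr (v - w) = pr v - pr w :=
  map_sub (Form.pullA (Prod.fst : V × ℝ → V) Dif.map_fst) v w

theorem pr_mul (v w : Form D) : pr (v * w) = pr v * pr w :=
  map_mul (Form.pullA (Prod.fst : V × ℝ → V) Dif.map_fst) v w

theorem at_mul (t : ℝ) (v w : Form (D.prod (Dif.lin ℝ))) :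
    at_ t (v * w) = at_ t v * at_ t w :=
  map_mul (Form.pullA (fun x : V => (x, t)) (Form.map_slice t)) v w

theorem K_sub (v w : Form (D.prod (Dif.lin ℝ))) : Form.K (v - w) = Form.K v - Form.K w := by
  have h : v - w = v + (-1 : ℝ) • w := by rw [neg_one_smul, sub_eq_add_neg]
  rw [h, Form.K_add, Form.K_smul, neg_one_smul, sub_eq_add_neg]

theorem K_neg (w : Form (D.prod (Dif.lin ℝ))) : Form.K (-w) = -Form.K w := by
  have h : -w = (-1 : ℝ) • w := by rw [neg_one_smul]
  rw [h, Form.K_smul, neg_one_smul]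

theorem K_zero' : Form.K (0 : Form (D.prod (Dif.lin ℝ))) = 0 := by
  have h := Form.K_smul (D := D) 0 0
  rwa [zero_smul, zero_smul] at h

theorem KT_add (c : ℝ) (v w : Form (D.prod (Dif.lin ℝ))) : KT c (v + w) = KT c v + KT c w := by
  rw [KT, KT, KT, ← Form.K_add]
  congr 1
  exact map_add (Form.pullA _ (map_scale (D := D) c)) v w

theorem KT_sub (c : ℝ) (v w : Form (D.prod (Dif.lin ℝ))) : KT c (v - w) = KT c v - KT c w := by
  rw [KT, KT, KT, ← K_sub]
  congr 1
  exact map_sub (Form.pullA _ (map_scale (D := D) c)) v w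

theorem KT_neg (c : ℝ) (w : Form (D.prod (Dif.lin ℝ))) : KT c (-w) = -KT c w := by
  rw [KT, KT, ← K_neg]
  congr 1
  exact map_neg (Form.pullA _ (map_scale (D := D) c)) w

theorem KT_zero' (c : ℝ) : KT c (0 : Form (D.prod (Dif.lin ℝ))) = 0 := by
  rw [KT]
  have h : Form.pull (fun p : V × ℝ => (p.1, c * p.2)) (map_scale c)
      (0 : Form (D.prod (Dif.lin ℝ))) = 0 := map_zero (Form.pullA _ (map_scale (D := D) c))
  rw [h, K_zero']

/-! ### restriction to a slice -/

theorem at_pull {Y : Type*} {D' : Dif Y} {f : V × ℝ → Y} (hf : (D.prod (Dif.lin ℝ)).Map D' f)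
    (t : ℝ) {g : V → Y} (hg : D.Map D' g) (h : ∀ v, f (v, t) = g v) (w : Form D') :
    at_ t (Form.pull f hf w) = Form.pull g hg w := by
  have h1 : f ∘ (fun v : V => (v, t)) = g := funext h
  subst h1
  rw [at_]
  exact (Form.pull_comp (Form.map_slice t) hf hg w).symm

theorem at_pr (t : ℝ) (w : Form D) : at_ t (pr w) = w := by
  rw [pr, at_pull (g := id) Dif.map_fst t Dif.map_id (fun v => rfl), Form.pull_id]

theorem pull_fn {Y : Type*} {D' : Dif Y} {f : V → Y} (hf : D.Map D' f) {g : Y → ℝ}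
    (hg : D'.Map (Dif.lin ℝ) g) (hgf : D.Map (Dif.lin ℝ) (g ∘ f)) :
    Form.pull f hf (Form.fn g hg) = Form.fn (g ∘ f) hgf :=
  Form.ext_val fun E _ _ _ u x h => by
    rw [Form.pull_val hf _ h, Form.fn_val _ _ (hf h), Form.fn_val _ _ h]
    rfl

theorem map_const (r : ℝ) : D.Map (Dif.lin ℝ) (fun _ : V => r) :=
  fun {E} _ _ _ {u x} h => Sm.of_contDiff contDiff_const _

theorem fn_const (r : ℝ) : Form.fn (fun _ : V => r) (map_const (D := D) r) = r • 1 :=
  Form.ext_val fun E _ _ _ u x h => by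
    rw [Form.fn_val _ _ h, Form.smul_val, Form.one_val h, Algebra.algebraMap_eq_smul_one]

theorem at_dt (t : ℝ) : at_ t (dt : Form (D.prod (Dif.lin ℝ))) = 0 := by
  rw [at_, dt, Form.pull_d]
  rw [pull_fn (Form.map_slice t) (Dif.map_snd (D := D) (D' := Dif.lin ℝ)) (map_const t)]
  change (Form.fn (fun _ : V => t) (map_const t)).d = 0
  rw [fn_const, Form.d_smul, Form.d_one, smul_zero]

/-- the homotopy formula over `[0, c]` -/
theorem KT_homotopy (c : ℝ) (w : Form (D.prod (Dif.lin ℝ))) :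
    at_ c w - at_ 0 w = KT c w.d + (KT c w).d := by
  have h := Form.homotopy (Form.pull (fun p : V × ℝ => (p.1, c * p.2)) (map_scale c) w)
  have h1 : Form.pull (fun x => (x, (1 : ℝ))) (Form.map_slice 1)
      (Form.pull (fun p : V × ℝ => (p.1, c * p.2)) (map_scale c) w) = at_ c w :=
    at_pull (map_scale c) 1 (Form.map_slice c) (fun v => by simp) w
  have h0 : Form.pull (fun x => (x, (0 : ℝ))) (Form.map_slice 0)
      (Form.pull (fun p : V × ℝ => (p.1, c * p.2)) (map_scale c) w) = at_ 0 w :=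
    at_pull (map_scale c) 0 (Form.map_slice 0) (fun v => by simp) w
  rw [h1, h0, ← Form.pull_d] at h
  exact h

/-! ### the integral of `dt` -/

theorem K_dt : Form.K (dt : Form (D.prod (Dif.lin ℝ))) = 1 := by
  have h := Form.homotopy (Form.fn (Prod.snd : V × ℝ → ℝ)
    (Dif.map_snd (D := D) (D' := Dif.lin ℝ)))
  rw [pull_fn (Form.map_slice 1) (Dif.map_snd (D := D) (D' := Dif.lin ℝ)) (map_const 1),
    pull_fn (Form.map_slice 0) (Dif.map_snd (D := D) (D' := Dif.lin ℝ)) (map_const 0)] at h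
  change Form.fn (fun _ : V => (1 : ℝ)) (map_const 1) - Form.fn (fun _ : V => (0 : ℝ)) (map_const 0)
    = _ at h
  rw [fn_const, fn_const, one_smul, zero_smul, sub_zero,
    (Form.isDeg_fn (Prod.snd : V × ℝ → ℝ) (Dif.map_snd (D := D) (D' := Dif.lin ℝ))).K_zero,
    Form.d_zero, add_zero] at h
  exact h.symm

theorem scale_dt (c : ℝ) : Form.pull (fun p : V × ℝ => (p.1, c * p.2)) (map_scale c)
    (dt : Form (D.prod (Dif.lin ℝ))) = c • dt := by
  rw [dt, Form.pull_d, ← Form.d_smul]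
  congr 1
  refine Form.ext_val fun E _ _ _ u x h => ?_
  rw [Form.pull_val _ _ h, Form.smul_val,
    Form.fn_val _ (Dif.map_snd (D := D) (D' := Dif.lin ℝ)) (map_scale c h),
    Form.fn_val _ (Dif.map_snd (D := D) (D' := Dif.lin ℝ)) h]
  change algebraMap ℝ (Lam E) (c * (u x).2) = _
  rw [map_mul, Algebra.smul_def]

theorem scale_pr (c : ℝ) (w : Form D) :
    Form.pull (fun p : V × ℝ => (p.1, c * p.2)) (map_scale c) (pr w) = pr w := by
  rw [pr]
  exact (Form.pull_comp (map_scale c) Dif.map_fst Dif.map_fst w).symm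

theorem KT_mul_pr (c : ℝ) (v : Form (D.prod (Dif.lin ℝ))) (w : Form D) :
    KT c (v * pr w) = KT c v * w := by
  rw [KT, KT, ← Form.K_mul_fst]
  congr 1
  have h := map_mul (Form.pullA _ (map_scale (D := D) c)) v (pr w)
  simp only [Form.pullA_apply] at h
  rw [h, scale_pr, pr]

theorem KT_pr_mul (c : ℝ) (w : Form D) (v : Form (D.prod (Dif.lin ℝ))) :
    KT c (pr w * v) = w.sg * KT c v := by
  rw [KT, KT, ← Form.K_fst_mul]
  congr 1
  have h := map_mul (Form.pullA _ (map_scale (D := D) c)) (pr w) v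
  simp only [Form.pullA_apply] at h
  rw [h, scale_pr, pr]

theorem KT_dt (c : ℝ) : KT c (dt : Form (D.prod (Dif.lin ℝ))) = c • 1 := by
  rw [KT, scale_dt, Form.K_smul, K_dt]

/-! ### the flow -/

theorem map_at {c : ℝ} {φ : V × ℝ → V} (hφ : IsFlow D c φ) (t : ℝ) :
    D.Map D (fun v => φ (v, t)) := fun h => hφ.map (Form.map_slice t h)

variable {m : ℕ} {I : Form D →ₗ[ℝ] ℝ} {c : ℝ} {φ : V × ℝ → V}

/-- the integral is invariant under the flow -/
theorem I_time (hId : ∀ w : Form D, I w.d = 0) (hIm : ∀ w, I w = I (Form.part m w))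
    (hm : ∀ w : Form D, Form.part (m + 1) w = 0) (hφ : IsFlow D c φ) (s : ℝ) (w : Form D) :
    I (Form.pull (fun v => φ (v, s)) (map_at hφ s) w) = I w := by
  have h1 : (Form.part m w).d = 0 := by rw [← Form.part_succ_d, hm]
  have h2 := KT_homotopy s (Form.pull φ hφ.map (Form.part m w))
  rw [← Form.pull_d, h1] at h2
  have h3 : Form.pull φ hφ.map (0 : Form D) = 0 := map_zero (Form.pullA φ hφ.map)
  rw [h3, KT_zero', zero_add, at_pull hφ.map s (map_at hφ s) (fun v => rfl),
    at_pull hφ.map 0 Dif.map_id (fun v => hφ.zero v), Form.pull_id] at h2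
  have h4 : I (Form.pull (fun v => φ (v, s)) (map_at hφ s) (Form.part m w)) =
      I (Form.part m w) := by
    rw [← sub_eq_zero, ← map_sub, h2, hId]
  rw [hIm, Form.part_pull, h4, ← hIm]

/-- the integral of the average over the orbits -/
theorem I_average (hId : ∀ w : Form D, I w.d = 0) (hIm : ∀ w, I w = I (Form.part m w))
    (hm : ∀ w : Form D, Form.part (m + 1) w = 0) (hφ : IsFlow D c φ) (s : ℝ) (w : Form D) :
    I (KT s (dt * Form.pull φ hφ.map w)) = s * I w := by
  -- it is enough to consider closed forms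
  have key : ∀ w : Form D, w.d = 0 → I (KT s (dt * Form.pull φ hφ.map w)) = s * I w := by
    intro w hw
    let P : (V × ℝ) × ℝ → V := fun p => φ (p.1.1, p.2 * p.1.2)
    have hP : ((D.prod (Dif.lin ℝ)).prod (Dif.lin ℝ)).Map D P := fun {E} _ _ _ {u x} h =>
      hφ.map (u := fun y => ((u y).1.1, (u y).2 * (u y).1.2)) ⟨h.1.1, by
        have h1 : Sm (fun y => (u y).2) x := h.2
        have h2 : Sm (fun y => (u y).1.2) x := h.1.2
        filter_upwards [h1, h2] with y h3 h4 using h3.mul h4⟩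
    have h1 := Form.homotopy (Form.pull P hP w)
    have h2 : Form.pull (fun x => (x, (1 : ℝ))) (Form.map_slice 1) (Form.pull P hP w) =
        Form.pull φ hφ.map w :=
      at_pull hP 1 hφ.map (fun v => by simp [P]) w
    have h3 : Form.pull (fun x => (x, (0 : ℝ))) (Form.map_slice 0) (Form.pull P hP w) = pr w :=
      at_pull hP 0 Dif.map_fst (fun v => by simp [P, hφ.zero]) w
    have h4 : Form.pull P hP (0 : Form D) = 0 := map_zero (Form.pullA P hP)
    rw [h2, h3, ← Form.pull_d, hw, h4, K_zero', zero_add] at h1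
    -- multiply by `dt`
    have h5 : dt * Form.pull φ hφ.map w = dt * pr w - (dt * Form.K (Form.pull P hP w)).d := by
      rw [Form.d_mul, d_dt, zero_mul, zero_add, sg_dt, ← h1]
      noncomm_ring
    have h6 := KT_homotopy s (dt * Form.K (Form.pull P hP w))
    rw [at_mul, at_mul, at_dt, at_dt, zero_mul, zero_mul, sub_zero] at h6
    have h7 : KT s (dt * Form.K (Form.pull P hP w)).d =
        -(KT s (dt * Form.K (Form.pull P hP w))).d := eq_neg_of_add_eq_zero_left h6.symm
    rw [h5, KT_sub, h7, KT_mul_pr, KT_dt, smul_mul_assoc, one_mul, sub_neg_eq_add, map_add, hId,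
      add_zero, map_smul, smul_eq_mul]
  have h1 : (Form.part m w).d = 0 := by rw [← Form.part_succ_d, hm]
  have h2 := key _ h1
  rw [← hIm, ← Form.part_pull] at h2
  have h3 := isDeg_dt.part_mul_left m (Form.pull φ hφ.map w)
  rw [hIm, part_KT, add_comm m 1, h3, h2]

/-! ### integration over the orbits -/

section Lam

variable {E : Type*} [NormedAddCommGroup E] [NormedSpace ℝ E] [FiniteDimensional ℝ E]

/-- the shear `(y, t) ↦ (y, a y + c t)` -/
noncomputable def shr (a : E →L[ℝ] ℝ) (c : ℝ) : E × ℝ →L[ℝ] E × ℝ :=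
  (ContinuousLinearMap.fst ℝ E ℝ).prod
    (a.comp (ContinuousLinearMap.fst ℝ E ℝ) + c • ContinuousLinearMap.snd ℝ E ℝ)

theorem shr_apply (a : E →L[ℝ] ℝ) (c : ℝ) (p : E × ℝ) : shr a c p = (p.1, a p.1 + c * p.2) := by
  simp [shr]

theorem at0_mul (v w : Lam (E × ℝ)) : at0 (v * w) = at0 v * at0 w :=
  map_mul (Fm.pull (ContinuousLinearMap.inl ℝ E ℝ)) v w

theorem pull_graph (a : E →L[ℝ] ℝ) (w : Lam (E × ℝ)) :
    Fm.pull ((ContinuousLinearMap.id ℝ E).prod a) w = at0 w + dx a * at1 w := by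
  induction w using Lam.left_ind with
  | h1 r =>
    rw [AlgHom.commutes, at1_apply, iprod_algebraMap, map_zero, mul_zero, add_zero, at0_apply,
      AlgHom.commutes]
  | h2 b w hw =>
    have h0 : at1 (dx b * w) = b ((0, 1) : E × ℝ) • at0 w - at0 (dx b) * at1 w := by
      rw [at1_apply, iprod_dx_mul, map_sub, map_smul, at0_mul, ← at1_apply]
    rw [← dx_eq, map_mul, hw, h0, at0_mul, pull_dx]
    have h1 : b.comp ((ContinuousLinearMap.id ℝ E).prod a) =
        b.comp (ContinuousLinearMap.inl ℝ E ℝ) + b ((0, 1) : E × ℝ) • a := by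
      refine ContinuousLinearMap.ext fun y => ?_
      have h2 : ((y, a y) : E × ℝ) = (y, 0) + a y • ((0, 1) : E × ℝ) := by simp
      simp only [ContinuousLinearMap.comp_apply, ContinuousLinearMap.prod_apply,
        ContinuousLinearMap.id_apply, add_apply, smul_apply, ContinuousLinearMap.inl_apply]
      rw [h2, map_add, map_smul, smul_eq_mul, smul_eq_mul, mul_comm]
    have h3 : at0 (dx b) = dx (b.comp (ContinuousLinearMap.inl ℝ E ℝ)) := pull_dx _ _
    rw [h1, h3, map_add, map_smul]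
    have h4 : dx a * (dx a * at1 w) = 0 := by rw [← mul_assoc, dx_mul_self, zero_mul]
    have h5 : dx (b.comp (ContinuousLinearMap.inl ℝ E ℝ)) * (dx a * at1 w) =
        -(dx a * (dx (b.comp (ContinuousLinearMap.inl ℝ E ℝ)) * at1 w)) := by
      rw [← mul_assoc, dx_anticomm, neg_mul, mul_assoc]
    rw [add_mul, mul_add, smul_mul_assoc, mul_add, h4, add_zero, h5, mul_sub, mul_smul_comm]
    noncomm_ring
  | h3 v w hv hw => rw [map_add, hv, hw, map_add, map_add]; noncomm_ring

theorem at0_shr (a : E →L[ℝ] ℝ) (c : ℝ) (w : Lam (E × ℝ)) :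
    at0 (Fm.pull (shr a c) w) = at0 w + dx a * at1 w := by
  rw [← pull_graph, at0_apply, ← pull_comp_apply]
  congr 2
  refine ContinuousLinearMap.ext fun y => ?_
  simp [shr_apply]

theorem at1_shr (a : E →L[ℝ] ℝ) (c : ℝ) (w : Lam (E × ℝ)) :
    at1 (Fm.pull (shr a c) w) = c • at1 w := by
  have h1 : shr a c ((0, 1) : E × ℝ) = c • ((0, 1) : E × ℝ) := by simp [shr_apply]
  rw [at1_apply, pull_iprod, h1, iprod_smul, map_smul, map_smul, at0_shr, at1_apply, iprod_self,
    map_zero, mul_zero, add_zero, at1_apply]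

theorem at1_dt_mul (w : Lam (E × ℝ)) :
    at1 (dx (ContinuousLinearMap.snd ℝ E ℝ) * w) = at0 w := by
  rw [at1_apply, iprod_dx_mul, map_sub, map_smul, at0_mul]
  have h1 : at0 (dx (ContinuousLinearMap.snd ℝ E ℝ)) = 0 := by
    rw [at0_apply, pull_dx]
    have : (ContinuousLinearMap.snd ℝ E ℝ).comp (ContinuousLinearMap.inl ℝ E ℝ) = 0 := by
      ext; simp
    rw [this, map_zero]
  rw [h1, zero_mul, sub_zero]
  simp

end Lam

theorem dt_val {E : Type} [NormedAddCommGroup E] [NormedSpace ℝ E] [FiniteDimensional ℝ E]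
    {u : E → V × ℝ} {x : E} (h : (D.prod (Dif.lin ℝ)).At u x) :
    (dt : Form (D.prod (Dif.lin ℝ))).val u x = dx (fderiv ℝ (fun y => (u y).2) x) := by
  rw [dt, Form.d_val _ h]
  have h1 : (Form.fn (Prod.snd : V × ℝ → ℝ) (Dif.map_snd (D := D) (D' := Dif.lin ℝ))).val u
      =ᶠ[𝓝 x] Fm.fn (fun y => (u y).2) := by
    filter_upwards [(D.prod (Dif.lin ℝ)).open' h] with y hy
    rw [Form.fn_val _ _ hy]
    rfl
  have h2 : Sm (fun y => (u y).2) x := h.2
  rw [extd_congr h1, extd_fn h2.differentiableAt]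

section Val

variable {E : Type} [NormedAddCommGroup E] [NormedSpace ℝ E] [FiniteDimensional ℝ E]

theorem dt_cyl {u : E → V} {x : E} (h : D.At u x) (t : ℝ) :
    (dt : Form (D.prod (Dif.lin ℝ))).val (Form.cyl u) (x, t) =
      dx (ContinuousLinearMap.snd ℝ E ℝ) := by
  rw [dt_val (Form.cyl_at h t)]
  congr 1
  exact fderiv_snd

/-- the form along an orbit -/
theorem flow_val (hφ : IsFlow D c φ) (w : Form D) {u : E → V × ℝ} {x : E}
    (h : (D.prod (Dif.lin ℝ)).At u x) (t : ℝ) :
    (Form.pull (fun p : V × ℝ => (p.1, c * p.2)) (map_scale c) (Form.pull φ hφ.map w)).val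
      (Form.cyl (φ ∘ u)) (x, t) =
    Fm.pull (shr (fderiv ℝ (fun y => (u y).2) x) c)
      (w.val (φ ∘ Form.cyl fun y => (u y).1) (x, (u x).2 + c * t)) := by
  have h1 : D.At (φ ∘ u) x := hφ.map h
  have h2 : (D.prod (Dif.lin ℝ)).At (Form.cyl (φ ∘ u)) (x, t) := Form.cyl_at h1 t
  rw [Form.pull_val _ _ h2, Form.pull_val _ _ (map_scale c h2)]
  have h3 : φ ∘ (fun p : V × ℝ => (p.1, c * p.2)) ∘ Form.cyl (φ ∘ u) =
      (φ ∘ Form.cyl fun y => (u y).1) ∘ fun p : E × ℝ => (p.1, (u p.1).2 + c * p.2) := by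
    funext p
    simp only [Function.comp_apply, Form.cyl]
    rw [← hφ.add (u p.1).1]
  have h4 : Sm (fun y => (u y).2) x := h.2
  have h5 : Sm (fun p : E × ℝ => (p.1, (u p.1).2 + c * p.2)) (x, t) := by
    refine Sm.prodMk (Sm.of_contDiff contDiff_fst _) ?_
    have h6 : Sm (fun p : E × ℝ => (u p.1).2) (x, t) :=
      Sm.comp (f := fun y => (u y).2) (g := Prod.fst) (x := ((x, t) : E × ℝ)) h4
        (Sm.of_contDiff contDiff_fst _)
    filter_upwards [h6] with p hp
    exact hp.add (contDiff_const.mul contDiff_snd).contDiffAt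
  have h7 : fderiv ℝ (fun p : E × ℝ => (p.1, (u p.1).2 + c * p.2)) (x, t) =
      shr (fderiv ℝ (fun y => (u y).2) x) c := by
    have h8 : HasFDerivAt (fun p : E × ℝ => (u p.1).2)
        ((fderiv ℝ (fun y => (u y).2) x).comp (ContinuousLinearMap.fst ℝ E ℝ)) (x, t) :=
      HasFDerivAt.comp (x, t) (g := fun y => (u y).2) h4.differentiableAt.hasFDerivAt
        hasFDerivAt_fst
    have h9 : HasFDerivAt (fun p : E × ℝ => c * p.2) (c • ContinuousLinearMap.snd ℝ E ℝ) (x, t) :=
      hasFDerivAt_snd.const_mul c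
    exact (hasFDerivAt_fst.prodMk (h8.add h9)).fderiv
  rw [h3, w.nat (u := φ ∘ Form.cyl fun y => (u y).1) (x := (x, t))
    (hφ.map (Form.cyl_at (u := fun y => (u y).1) (x := x) h.1 _)) h5, h7]

theorem J_val (hφ : IsFlow D c φ) (w : Form D) {u : E → V × ℝ} {x : E}
    (h : (D.prod (Dif.lin ℝ)).At u x) :
    (J φ hφ.map c w).val (φ ∘ u) x = ∫ t in (0 : ℝ)..1,
      c • at1 (w.val (φ ∘ Form.cyl fun y => (u y).1) (x, (u x).2 + c * t)) := by
  unfold J KT
  rw [Form.K_val _ (hφ.map h), kop]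
  refine intervalIntegral.integral_congr fun t _ => ?_
  beta_reduce
  rw [flow_val hφ w h, at1_shr]

theorem A_val (hφ : IsFlow D c φ) (w : Form D) {u : E → V × ℝ} {x : E}
    (h : (D.prod (Dif.lin ℝ)).At u x) :
    (KT c (dt * Form.pull φ hφ.map w)).val (φ ∘ u) x = ∫ t in (0 : ℝ)..1,
      c • (at0 (w.val (φ ∘ Form.cyl fun y => (u y).1) (x, (u x).2 + c * t)) +
        dx (fderiv ℝ (fun y => (u y).2) x) *
          at1 (w.val (φ ∘ Form.cyl fun y => (u y).1) (x, (u x).2 + c * t))) := by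
  unfold KT
  rw [Form.K_val _ (hφ.map h), kop]
  refine intervalIntegral.integral_congr fun t _ => ?_
  have h1 := map_mul (Form.pullA _ (map_scale (D := D) c)) dt (Form.pull φ hφ.map w)
  simp only [Form.pullA_apply] at h1
  rw [h1, scale_dt, Form.mul_val, Form.smul_val, dt_cyl (hφ.map h), flow_val hφ w h,
    smul_mul_assoc, map_smul, at1_dt_mul, at0_shr]

/-- the forms along an orbit are periodic -/
theorem per_val (hφ : IsFlow D c φ) (w : Form D) {u : E → V} {x : E} (h : D.At u x) (r : ℝ) :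
    w.val (φ ∘ Form.cyl u) (x, r + c) = w.val (φ ∘ Form.cyl u) (x, r) := by
  have h1 : φ ∘ Form.cyl u = (φ ∘ Form.cyl u) ∘ fun p : E × ℝ => (p.1, p.2 + c) := by
    funext p
    simp only [Function.comp_apply, Form.cyl]
    rw [← hφ.add, hφ.per]
  have h2 : fderiv ℝ (fun p : E × ℝ => (p.1, p.2 + c)) (x, r) =
      ContinuousLinearMap.id ℝ (E × ℝ) := by
    have h3 : HasFDerivAt (fun p : E × ℝ => (p.1, p.2 + c))
        ((ContinuousLinearMap.fst ℝ E ℝ).prod (ContinuousLinearMap.snd ℝ E ℝ)) (x, r) :=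
      hasFDerivAt_fst.prodMk (hasFDerivAt_snd.add_const c)
    rw [h3.fderiv]
    ext <;> simp
  conv_rhs => rw [h1]
  rw [w.nat (u := φ ∘ Form.cyl u) (x := (x, r)) (hφ.map (Form.cyl_at (x := x) h _))
    (Sm.of_contDiff (contDiff_fst.prodMk (contDiff_snd.add contDiff_const)) _), h2, Fm.pull_id]
  rfl

theorem cont_val (hφ : IsFlow D c φ) (w : Form D) {u : E → V} {x : E} (h : D.At u x) :
    Continuous fun r : ℝ => w.val (φ ∘ Form.cyl u) (x, r) := by
  refine continuous_iff_continuousAt.2 fun r => ?_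
  have h1 : ContinuousAt (w.val (φ ∘ Form.cyl u)) (x, r) :=
    (w.smooth (hφ.map (Form.cyl_at h r))).continuousAt
  exact h1.comp (f := fun r : ℝ => (x, r)) (Continuous.prodMk_right x).continuousAt

theorem integral_shift {W : Type*} [NormedAddCommGroup W] [NormedSpace ℝ W] {f : ℝ → W}
    (hf : ∀ r, f (r + c) = f r) (hc : c ≠ 0) (r : ℝ) :
    ∫ t in (0 : ℝ)..1, f (r + c * t) = ∫ t in (0 : ℝ)..1, f (c * t) := by
  have h1 : Function.Periodic f c := hf
  rw [intervalIntegral.integral_comp_add_mul f hc r, intervalIntegral.integral_comp_mul_left f hc]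
  congr 1
  rw [mul_zero, mul_one, add_zero]
  have := h1.intervalIntegral_add_eq r 0
  rwa [zero_add] at this

end Val

/-- integrals over the orbits are basic -/
theorem basic_J (hφ : IsFlow D c φ) (hc : c ≠ 0) (w : Form D) :
    Basic φ hφ.map (J φ hφ.map c w) := Form.ext_val fun E _ _ _ u x h => by
  have h0 : (D.prod (Dif.lin ℝ)).At (fun y => ((u y).1, (0 : ℝ))) x :=
    ⟨h.1, Sm.of_contDiff contDiff_const _⟩
  have h1 := J_val hφ w h0
  have h2 : (φ ∘ fun y => ((u y).1, (0 : ℝ))) = fun y => (u y).1 := by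
    funext y
    exact hφ.zero _
  rw [h2] at h1
  rw [pr, Form.pull_val (Dif.map_fst (D := D) (D' := Dif.lin ℝ)) _ h, Form.pull_val hφ.map _ h,
    J_val hφ w h]
  change _ = (J φ hφ.map c w).val (fun y => (u y).1) x
  rw [h1]
  simp only [zero_add]
  exact integral_shift (f := fun r => c • at1 (w.val (φ ∘ Form.cyl fun y => (u y).1) (x, r)))
    (fun r => by rw [per_val hφ w h.1]) hc _

/-- the average over the orbits is basic up to the integral over the orbits -/
theorem pull_average (hφ : IsFlow D c φ) (hc : c ≠ 0) (w : Form D) :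
    Form.pull φ hφ.map (KT c (dt * Form.pull φ hφ.map w)) =
      pr (KT c (dt * Form.pull φ hφ.map w)) + dt * pr (J φ hφ.map c w) :=
  Form.ext_val fun E _ _ _ u x h => by
  have h0 : (D.prod (Dif.lin ℝ)).At (fun y => ((u y).1, (0 : ℝ))) x :=
    ⟨h.1, Sm.of_contDiff contDiff_const _⟩
  have h1 := J_val hφ w h0
  have h1' := A_val hφ w h0
  have h2 : (φ ∘ fun y => ((u y).1, (0 : ℝ))) = fun y => (u y).1 := by
    funext y
    exact hφ.zero _
  rw [h2] at h1 h1'
  have h3 : fderiv ℝ (fun y : E => ((fun y => ((u y).1, (0 : ℝ))) y).2) x = 0 :=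
    fderiv_const_apply _
  rw [Form.add_val, Form.mul_val, dt_val h, pr, pr,
    Form.pull_val (Dif.map_fst (D := D) (D' := Dif.lin ℝ)) _ h,
    Form.pull_val (Dif.map_fst (D := D) (D' := Dif.lin ℝ)) _ h,
    Form.pull_val hφ.map _ h, A_val hφ w h]
  change _ = (KT c (dt * Form.pull φ hφ.map w)).val (fun y => (u y).1) x +
    _ * (J φ hφ.map c w).val (fun y => (u y).1) x
  rw [h1, h1', h3, map_zero]
  simp only [zero_add, zero_mul, add_zero, smul_add]
  have hG := cont_val hφ w h.1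
  have hG1 : Continuous fun t : ℝ =>
      w.val (φ ∘ Form.cyl fun y => (u y).1) (x, (u x).2 + c * t) :=
    hG.comp (continuous_const.add (continuous_const.mul continuous_id))
  have e1 : Continuous fun t : ℝ =>
      c • at0 (w.val (φ ∘ Form.cyl fun y => (u y).1) (x, (u x).2 + c * t)) :=
    ((at0 (E := E)).continuous.comp hG1).const_smul c
  have e2 : Continuous fun t : ℝ =>
      c • at1 (w.val (φ ∘ Form.cyl fun y => (u y).1) (x, (u x).2 + c * t)) :=
    ((at1 (E := E)).continuous.comp hG1).const_smul c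
  have e3 : Continuous fun t : ℝ => c • (dx (fderiv ℝ (fun y => (u y).2) x) *
      at1 (w.val (φ ∘ Form.cyl fun y => (u y).1) (x, (u x).2 + c * t))) :=
    (continuous_const.mul ((at1 (E := E)).continuous.comp hG1)).const_smul c
  rw [intervalIntegral.integral_add (e1.intervalIntegrable _ _) (e3.intervalIntegrable _ _)]
  have h4 := ContinuousLinearMap.intervalIntegral_comp_comm
    (ContinuousLinearMap.mul ℝ (Lam E) (dx (fderiv ℝ (fun y => (u y).2) x))) (a := 0) (b := 1)
    (μ := volume) (e2.intervalIntegrable 0 1)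
  have h5 : ∀ t : ℝ, (ContinuousLinearMap.mul ℝ (Lam E) (dx (fderiv ℝ (fun y => (u y).2) x)))
      (c • at1 (w.val (φ ∘ Form.cyl fun y => (u y).1) (x, (u x).2 + c * t))) =
      c • (dx (fderiv ℝ (fun y => (u y).2) x) *
        at1 (w.val (φ ∘ Form.cyl fun y => (u y).1) (x, (u x).2 + c * t))) := fun t => by
    rw [ContinuousLinearMap.mul_apply', mul_smul_comm]
  simp only [h5] at h4
  rw [h4, ContinuousLinearMap.mul_apply']
  congr 1
  · exact integral_shift (f := fun r => c • at0 (w.val (φ ∘ Form.cyl fun y => (u y).1) (x, r)))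
      (fun r => by rw [per_val hφ w h.1]) hc _
  · congr 1
    exact integral_shift (f := fun r => c • at1 (w.val (φ ∘ Form.cyl fun y => (u y).1) (x, r)))
      (fun r => by rw [per_val hφ w h.1]) hc _

/-- integration over the orbits and the connection form -/
theorem I_alpha_J (hId : ∀ w : Form D, I w.d = 0) (hIm : ∀ w, I w = I (Form.part m w))
    (hm : ∀ w : Form D, Form.part (m + 1) w = 0) (hφ : IsFlow D c φ) (hc : c ≠ 0)
    (hIφ : ∀ w : Form D, Basic φ hφ.map w → I w = 0) {α : Form D}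
    (hα : Form.pull φ hφ.map α = pr α + dt) (w : Form D) :
    c * I w = I (α * J φ hφ.map c w) := by
  rw [← I_average hId hIm hm hφ c w, ← sub_eq_zero, ← map_sub]
  refine hIφ _ ?_
  have h1 := map_sub (Form.pullA φ hφ.map) (KT c (dt * Form.pull φ hφ.map w))
    (α * J φ hφ.map c w)
  have h2 := map_mul (Form.pullA φ hφ.map) α (J φ hφ.map c w)
  simp only [Form.pullA_apply] at h1 h2
  have h3 : Form.pull φ hφ.map (J φ hφ.map c w) = pr (J φ hφ.map c w) := basic_J hφ hc w
  unfold Basic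
  rw [h1, h2, pull_average hφ hc, h3, hα, pr_sub, pr_mul]
  noncomm_ring

/-! ### the hypotheses `hID` and `hIJ` of the formal theorem -/

theorem hID {T : ℝ} (hId : ∀ w : Form D, I w.d = 0) (hIm : ∀ w, I w = I (Form.part m w))
    (hm : ∀ w : Form D, Form.part (m + 1) w = 0) (hφ : IsFlow D (2 * T) φ) :
    ∀ w, I (Form.pull (fun v => φ (v, T)) (map_at hφ T) w) = I w :=
  I_time hId hIm hm hφ T

theorem hIJ {T : ℝ} (hT : 0 < T) (hId : ∀ w : Form D, I w.d = 0)
    (hIm : ∀ w, I w = I (Form.part m w)) (hm : ∀ w : Form D, Form.part (m + 1) w = 0)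
    (hφ : IsFlow D (2 * T) φ) (hIφ : ∀ w : Form D, Basic φ hφ.map w → I w = 0) {α : Form D}
    (hα : Form.pull φ hφ.map α = pr α + dt) :
    ∀ w, 2 * T * I w = I (α * J φ hφ.map (2 * T) w) :=
  fun w => I_alpha_J hId hIm hm hφ (by positivity) hIφ hα w

end Vale.Agent.P231.WA
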