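import Vale.Agent.P231.H584.Formal

/-!
# P231, block A: the formal theorem, in the form used by the assembly
-/

set_option linter.unusedSectionVars false
set_option linter.unusedVariables false

open MeasureTheory Set Module Filter Topology
open scoped ContDiff Manifold Real

namespace Vale.Agent.P231.WA

open Vale.Agent.P231.Fm Vale.Agent.P231.W

variable {M V : Type*} {DM : Dif M} {DV : Dif V}

/-- the time-`t` map of a flow is smooth -/
theorem map_time {c : ℝ} {φ : V × ℝ → V} (hφ : IsFlow DV c φ) (t : ℝ) :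
    DV.Map DV (fun v => φ (v, t)) := fun {E} _ _ _ {u x} h => hφ.map (Form.map_slice t h)

/-- block A -/
theorem formal {n : ℕ} (hn : 2 ≤ n) {D : ℝ} (hD : 0 < D)
    {φ ρ : V × ℝ → V} (hφ : IsFlow DV (2 * D) φ) (hρ : IsFlow DV (2 * π) ρ)
    {foot : V → M} (hfoot : DV.Map DM foot)
    (hfρ : ∀ v t, foot (ρ (v, t)) = foot v)
    (hfρ' : ∀ v t, foot (φ (ρ (v, t), D)) = foot (φ (v, D)))
    (F : Form DM) (hFs : F.sg = F) (hFd : F.d = 0) (hFn : F ^ (n + 1) = 0)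
    {gp gm : V × ℝ → M} (hgp : (DV.prod (Dif.lin ℝ)).Map DM gp)
    (hgm : (DV.prod (Dif.lin ℝ)).Map DM gm)
    (gp0 : ∀ v, gp (v, 0) = foot v) (gp1 : ∀ v t, gp (φ (v, t), 1) = gp (v, 1))
    (gm0 : ∀ v, gm (v, 0) = foot v) (gm1 : ∀ v t, gm (φ (v, t), 1) = gm (v, 1))
    (I : Form DV →ₗ[ℝ] ℝ) (hId : ∀ w : Form DV, I w.d = 0)
    (hIφ : ∀ w : Form DV, Basic φ hφ.map w → I w = 0)
    (hIρ : ∀ w : Form DV, Basic ρ hρ.map w → I w = 0)
    (hID : ∀ w : Form DV, I (Form.pull (fun v => φ (v, D)) (map_time hφ D) w) = I w)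
    (α : Form DV) (hαs : α.sg = -α) (hα : Form.pull φ hφ.map α = pr α + dt)
    (hIJ : ∀ w : Form DV, 2 * D * I w = I (α * J φ hφ.map (2 * D) w))
    {B0 : Form DV} (hB0 : B0 = KT D (Form.pull (fun p => foot (φ p))
      (Dif.Map.comp (f := φ) (g := foot) hfoot hφ.map) F))
    {κ κ' : ℝ} (hκ : κ ≠ 0) (hκ' : κ' ≠ 0)
    (hJ0 : J ρ hρ.map (2 * π) B0 = κ • 1)
    (hJ1 : J φ hφ.map (2 * D) (Form.K (Form.pull gp hgp F) -
      Form.pull (fun v => φ (v, D)) (map_time hφ D) (Form.K (Form.pull gm hgm F))) = κ' • 1) :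
    (κ' / (2 * D)) ^ (2 * n) * I (α * α.d ^ (2 * n - 1)) =
      (-1) ^ n * (Nat.choose (2 * n) n : ℝ) *
        I (B0 * (Form.pull foot hfoot F) ^ n *
          (Form.pull (fun v => foot (φ (v, D)))
            (Dif.Map.comp (f := fun v => φ (v, D)) (g := foot) hfoot (map_time hφ D)) F) ^
              (n - 1)) := by
  have hgam : (DV.prod (Dif.lin ℝ)).Map DM (fun p => foot (φ p)) :=
    Dif.Map.comp (f := φ) (g := foot) hfoot hφ.map
  subst hB0
  have h := H584.formal (n := n) (by omega) (T := 2 * D) (c := 2 * π) (D := D) (by positivity)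
    rfl hφ hρ hfoot hgam (fun p => rfl) hgp hgm gp0 gp1 gm0 gm1 hfρ hfρ' hFd hFs hFn hαs hα
    hId hIφ hIρ hID hκ hκ' hJ0 hJ1
  rw [h, mul_assoc (KT D _)]

end Vale.Agent.P231.WA
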